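import Vale.Agent.P225.System.Defs

/-!
P225, module F: the parameters of the control-free path: local formulas, smoothness, determinant and
bounds.
-/

noncomputable section

namespace Vale.Agent.P225.Free

open Matrix Real Set Filter
open scoped ContDiff Topology

variable {d : PathData} {r₂ β φ₀ : ℝ}

/-- The second elementary symmetric function. -/
def e2 (P : Fin 3 → ℝ) : ℝ := P 0 * P 1 + P 0 * P 2 + P 1 * P 2

theorem zero_inBox (hd : d.Good r₂ β φ₀) : InBox d fun _ _ _ => 0 := fun _ _ _ => by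
  simpa using hd.box_nonneg

theorem e2_shift (G : Fin 3) (P : Fin 3 → ℝ) :
    (P G + P (G + 1)) * (P G + P (G + 2)) - P G * P G = e2 P := by
  fin_cases G <;> simp [e2] <;> ring

theorem toLink_adQ (G : Fin 3) (P : Fin 3 → ℝ) :
    toLink (SU2.adQ G P) = adInv !![P G + P (G + 1), P G; P G, P G + P (G + 2)] := by
  ext i j
  fin_cases i <;> fin_cases j <;> simp [toLink, SU2.adQ, adInv, lkDir, lkSplit, Fin.ext_iff]

theorem det_toLink_adQ (G : Fin 3) (P : Fin 3 → ℝ) :
    (toLink (SU2.adQ G P)).det = e2 P ^ 3 := by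
  rw [toLink_adQ, LinkLine.det_adInv, Matrix.det_fin_two_of, e2_shift]

theorem log_det_inv_adQ (G : Fin 3) (P : Fin 3 → ℝ) :
    Real.log ((toLink (SU2.adQ G P))⁻¹).det = -3 * Real.log (e2 P) := by
  rw [Matrix.det_nonsing_inv, Ring.inverse_eq_inv', det_toLink_adQ, Real.log_inv, Real.log_pow]
  push_cast
  ring

theorem basePar_of_eq {t : ℝ} {P : Fin 3 → ℝ}
    (h : pathQ d (fun _ _ _ => 0) t = SU2.adQ (pathGauge d t) P) : basePar d t = P := by
  funext k
  simp only [basePar, h, SU2.adQ]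
  generalize pathGauge d t = G
  fin_cases G <;> fin_cases k <;> simp

theorem stageTheta_mem (σ : StagePlan) (s : ℝ) : stageTheta σ s ∈ Icc (0 : ℝ) 1 := by
  unfold stageTheta
  have a0 := smoothTransition.nonneg (2 * s - 1 / 2)
  have a1 := smoothTransition.le_one (2 * s - 1 / 2)
  set y := 2 * (s - ((σ.len : ℝ) + σ.wait + 1)) - 1 / 2
  have b0 := smoothTransition.nonneg y
  have b1 := smoothTransition.le_one y
  refine ⟨by linarith, ?_⟩
  rcases le_or_gt y 0 with hy | hy
  · rw [smoothTransition.zero_of_nonpos hy]; linarith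
  · rw [smoothTransition.one_of_one_le (x := 2 * s - 1 / 2)
      (by have : (0 : ℝ) ≤ (σ.len : ℝ) + σ.wait := by positivity
          simp only [y] at hy; linarith)]
    linarith

theorem stageTheta_start (σ : StagePlan) {s : ℝ} (hs : s ≤ 1 / 4) : stageTheta σ s = 1 := by
  have : (0 : ℝ) ≤ (σ.len : ℝ) + σ.wait := by positivity
  rw [stageTheta, smoothTransition.zero_of_nonpos (by linarith),
    smoothTransition.zero_of_nonpos (by linarith)]
  ring

theorem stageTheta_end (σ : StagePlan) {s : ℝ} (hs : σ.dur - 1 / 4 ≤ s) : stageTheta σ s = 1 := by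
  have : (0 : ℝ) ≤ (σ.len : ℝ) + σ.wait := by positivity
  have : (0 : ℝ) ≤ (σ.dwell : ℝ) := by positivity
  rw [StagePlan.dur] at hs
  rw [stageTheta, smoothTransition.one_of_one_le (by linarith),
    smoothTransition.one_of_one_le (by linarith)]
  ring

theorem contDiff_stageTheta (σ : StagePlan) : ContDiff ℝ ∞ (stageTheta σ) := by
  unfold stageTheta
  exact (contDiff_const.sub (smoothTransition.contDiff.comp
    ((contDiff_const.mul contDiff_id).sub contDiff_const))).add (smoothTransition.contDiff.comp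
      ((contDiff_const.mul (contDiff_id.sub contDiff_const)).sub contDiff_const))

theorem linePar_one (P : ℝ) (G : Fin 3) : linePar P 1 G = fun _ => P := by
  funext k
  have : Real.sqrt 3 ≠ 0 := by positivity
  simp only [linePar, ite_self, mul_one]
  norm_num

theorem e2_linePar {P θ : ℝ} (hθ : 0 ≤ θ) (G : Fin 3) : e2 (linePar P θ G) = 3 * P ^ 2 := by
  have h : (0 : ℝ) < 1 + 2 * θ := by linarith
  have h1 := Real.sq_sqrt h.le
  have h3 := Real.sq_sqrt (show (0 : ℝ) ≤ 3 by norm_num)
  have h0 : Real.sqrt (1 + 2 * θ) ≠ 0 := by positivity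
  fin_cases G <;> simp [e2, linePar] <;> field_simp <;>
    linear_combination P ^ 2 * (1 + 2 * θ) * h3 - 3 * P ^ 2 * h1

theorem stageQ_zero (σ : StagePlan) (ε P s : ℝ) (hP : P ≠ 0) :
    stageQ σ ε P (fun _ => 0) s = SU2.adQ σ.gauge (linePar P (stageTheta σ s) σ.gauge) := by
  have h0 : stageCtrl σ (fun _ => 0) s = 0 := by simp [stageCtrl]
  have hdet : (SU2.adQ σ.gauge (linePar P (stageTheta σ s) σ.gauge)).det ≠ 0 := by
    intro hz
    have hpos : 0 < e2 (linePar P (stageTheta σ s) σ.gauge) := by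
      rw [e2_linePar (stageTheta_mem σ s).1]; positivity
    have h1 := det_toLink_adQ σ.gauge (linePar P (stageTheta σ s) σ.gauge)
    have hb : Function.Bijective lkDir := by
      refine (Fintype.bijective_iff_injective_and_card _).2 ⟨fun i j h => ?_, by simp⟩
      revert h; revert i j; decide
    rw [show toLink (SU2.adQ σ.gauge (linePar P (stageTheta σ s) σ.gauge)) =
      (SU2.adQ σ.gauge (linePar P (stageTheta σ s) σ.gauge)).submatrix (Equiv.ofBijective _ hb)
        (Equiv.ofBijective _ hb) from rfl, Matrix.det_submatrix_equiv_self, hz] at h1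
    have := pow_pos hpos 3
    linarith
  simp [stageQ, h0, div_self hdet]

theorem pathQ_stage (hd : d.Good r₂ β φ₀) {t : ℝ} {i l : ℕ}
    (hl : l < (d.plan (d.j₀ + i)).length)
    (h : t ∈ Ico (stageStart d i l) (stageStart d i (l + 1))) :
    pathQ d (fun _ _ _ => 0) t = SU2.adQ (pathGauge d t) (linePar (d.scale t)
      (stageTheta ((d.plan (d.j₀ + i))[l]) (speed (d.j₀ + i) * (t - stageStart d i l)))
      ((d.plan (d.j₀ + i))[l]).gauge) := by
  obtain ⟨hG, hQ⟩ := pathQ_inStage hd hl h fun _ _ _ => 0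
  rw [hQ, hG]
  exact stageQ_zero _ _ _ _ (hd.scale_pos t).ne'

theorem clusterStart_le (hd : d.Good r₂ β φ₀) {i l : ℕ} :
    (d.j₀ : ℝ) ^ 6 ≤ stageStart d i l := by
  have h1 : clusterStart d 0 ≤ clusterStart d i :=
    (clusterStart_bounds hd).1.monotone (Nat.zero_le i)
  have h2 : 0 ≤ planDur ((d.plan (d.j₀ + i)).take l) / speed (d.j₀ + i) :=
    div_nonneg (List.sum_nonneg fun x hx => by
      obtain ⟨σ, -, rfl⟩ := List.mem_map.1 hx
      simp only [StagePlan.dur]; positivity) (by unfold speed; positivity)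
  rw [clusterStart] at h1
  rw [stageStart]
  linarith

theorem pathQ_early (hd : d.Good r₂ β φ₀) {t : ℝ} (ht : t < (d.j₀ : ℝ) ^ 6) :
    pathQ d (fun _ _ _ => 0) t = SU2.adQ (pathGauge d t) (d.pre t) := by
  obtain ⟨hG, hQ⟩ := pathQ_outside hd (fun _ _ _ => 0) (t := t)
    fun il h => by linarith [h.2.1, clusterStart_le hd (i := il.1) (l := il.2)]
  rw [hQ, hG, if_neg (not_le.2 ht)]

theorem pathQ_late (hd : d.Good r₂ β φ₀) {t : ℝ} (ht : (d.j₀ : ℝ) ^ 6 - 1 ≤ t)
    (h : ∀ il, ¬ InStage d t il) :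
    pathQ d (fun _ _ _ => 0) t = SU2.adQ (pathGauge d t) (fun _ => d.scale t) := by
  obtain ⟨hG, hQ⟩ := pathQ_outside hd (fun _ _ _ => 0) h
  rw [hQ, hG]
  split
  · rfl
  · congr 1
    funext k
    exact hd.pre_end t ht k

/-- At every time the matrix is Ad-invariant with the parameters `basePar`. -/
theorem pathQ_base (hd : d.Good r₂ β φ₀) (t : ℝ) :
    pathQ d (fun _ _ _ => 0) t = SU2.adQ (pathGauge d t) (basePar d t) := by
  suffices h : ∃ P, pathQ d (fun _ _ _ => 0) t = SU2.adQ (pathGauge d t) P by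
    obtain ⟨P, hP⟩ := h
    rw [basePar_of_eq hP]
    exact hP
  by_cases hs : ∃ il, InStage d t il
  · obtain ⟨⟨i, l⟩, hl, hst, hen⟩ := hs
    exact ⟨_, pathQ_stage hd hl ⟨hst, hen⟩⟩
  · rcases lt_or_ge t ((d.j₀ : ℝ) ^ 6) with h | h
    · exact ⟨_, pathQ_early hd h⟩
    · exact ⟨_, pathQ_late hd (by linarith) (not_exists.1 hs)⟩

theorem basePar_early (hd : d.Good r₂ β φ₀) {t : ℝ} (ht : t < (d.j₀ : ℝ) ^ 6) :
    basePar d t = d.pre t := basePar_of_eq (pathQ_early hd ht)

theorem basePar_stage (hd : d.Good r₂ β φ₀) {t : ℝ} {i l : ℕ}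
    (hl : l < (d.plan (d.j₀ + i)).length)
    (h : t ∈ Ico (stageStart d i l) (stageStart d i (l + 1))) :
    basePar d t = linePar (d.scale t)
      (stageTheta ((d.plan (d.j₀ + i))[l]) (speed (d.j₀ + i) * (t - stageStart d i l)))
      ((d.plan (d.j₀ + i))[l]).gauge := basePar_of_eq (pathQ_stage hd hl h)

theorem stageStart_succ {i l : ℕ} (hl : l < (d.plan (d.j₀ + i)).length) :
    stageStart d i (l + 1) =
      stageStart d i l + ((d.plan (d.j₀ + i))[l]).dur / speed (d.j₀ + i) := by
  simp only [stageStart, planDur]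
  rw [← List.take_concat_get' _ _ hl, List.map_append, List.sum_append, List.map_cons, List.map_nil,
    List.sum_singleton, add_div, add_assoc]

theorem speed_le_one (hd : d.Good r₂ β φ₀) (i : ℕ) :
    0 < speed (d.j₀ + i) ∧ speed (d.j₀ + i) ≤ 1 := by
  have : (1 : ℝ) ≤ ((d.j₀ + i : ℕ) : ℝ) := by exact_mod_cast le_add_right hd.j₀_pos
  exact ⟨by unfold speed; positivity, inv_le_one_of_one_le₀ (one_le_pow₀ this)⟩

/-- Locally the parameters follow a smooth formula. -/
theorem basePar_smooth (hd : d.Good r₂ β φ₀) (k : Fin 3) :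
    ContDiff ℝ ∞ fun t => basePar d t k := by
  refine contDiff_iff_contDiffAt.2 fun t => ?_
  rcases lt_or_ge t ((d.j₀ : ℝ) ^ 6) with h | h
  · refine (hd.pre_smooth k).contDiffAt.congr_of_eventuallyEq ?_
    filter_upwards [Iio_mem_nhds h] with u hu
    rw [basePar_early hd hu]
  by_cases hs : ∃ i l, l < (d.plan (d.j₀ + i)).length ∧
      t ∈ Ioo (stageStart d i l) (stageStart d i (l + 1))
  · obtain ⟨i, l, hl, ht⟩ := hs
    set σ := (d.plan (d.j₀ + i))[l]
    set θ := fun u => stageTheta σ (speed (d.j₀ + i) * (u - stageStart d i l))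
    have hθ : ContDiff ℝ ∞ θ :=
      (contDiff_stageTheta σ).comp (contDiff_const.mul (contDiff_id.sub contDiff_const))
    have hθ0 : ∀ u, 0 ≤ θ u := fun u => (stageTheta_mem σ _).1
    have hsm : ContDiff ℝ ∞ fun u => linePar (d.scale u) (θ u) σ.gauge k := by
      unfold linePar
      refine ((contDiff_const.mul hd.scale_smooth).div ((contDiff_const.add
        (contDiff_const.mul hθ)).sqrt fun u => ?_) fun u => ?_).mul ?_
      · have := hθ0 u; positivity
      · have := hθ0 u; positivity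
      · split
        · exact hθ
        · exact contDiff_const
    refine hsm.contDiffAt.congr_of_eventuallyEq ?_
    filter_upwards [Ioo_mem_nhds ht.1 ht.2] with u hu
    rw [basePar_stage hd hl (Ioo_subset_Ico_self hu)]
  · refine hd.scale_smooth.contDiffAt.congr_of_eventuallyEq ?_
    filter_upwards [Ioo_mem_nhds (show t - 1 / 4 < t by linarith) (show t < t + 1 / 4 by linarith)]
      with u hu
    by_cases hu' : ∃ il, InStage d u il
    · obtain ⟨⟨i, l⟩, hl, hst, hen⟩ := hu'
      obtain ⟨hε, hε1⟩ := speed_le_one hd i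
      have hout : t ≤ stageStart d i l ∨ stageStart d i (l + 1) ≤ t := by
        by_contra hcon
        push Not at hcon
        exact hs ⟨i, l, hl, hcon⟩
      have h1 : stageTheta ((d.plan (d.j₀ + i))[l])
          (speed (d.j₀ + i) * (u - stageStart d i l)) = 1 := by
        rcases hout with h' | h'
        · refine stageTheta_start _ ?_
          simp only at hst
          calc speed (d.j₀ + i) * (u - stageStart d i l) ≤ 1 * (1 / 4) :=
                mul_le_mul hε1 (by linarith [hu.2]) (by linarith) zero_le_one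
            _ = _ := one_mul _
        · refine stageTheta_end _ ?_
          have e := stageStart_succ hl
          simp only at hen
          have h2 : speed (d.j₀ + i) * (stageStart d i (l + 1) - u) ≤ 1 * (1 / 4) :=
            mul_le_mul hε1 (by linarith [hu.1]) (by linarith) zero_le_one
          rw [e] at h2
          field_simp at h2 ⊢
          linarith
      rw [basePar_stage hd hl ⟨hst, hen⟩, h1, linePar_one]
    · rw [basePar_of_eq (pathQ_late hd (by linarith [hu.1]) (not_exists.1 hu'))]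

/-- Bounds of the parameters after `j₀⁶ - 1`, and the exact determinant. -/
theorem basePar_late (hd : d.Good r₂ β φ₀) {t : ℝ} (ht : (d.j₀ : ℝ) ^ 6 - 1 ≤ t) :
    e2 (basePar d t) = 3 * d.scale t ^ 2 ∧
      ∃ G : Fin 3, ∀ k, 0 ≤ basePar d t k ∧ basePar d t k ≤ 12 ∧
        (k ≠ G → 6 ≤ basePar d t k) := by
  obtain ⟨hP1, hP2⟩ := hd.scale_mem t ht
  have hconst : ∀ P : Fin 3 → ℝ, P = (fun _ => d.scale t) → e2 P = 3 * d.scale t ^ 2 ∧
      ∃ G : Fin 3, ∀ k, 0 ≤ P k ∧ P k ≤ 12 ∧ (k ≠ G → 6 ≤ P k) := fun P hP => by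
    subst hP
    exact ⟨by simp [e2]; ring, 0, fun k => ⟨by linarith, by linarith, fun _ => by linarith⟩⟩
  by_cases hs : ∃ il, InStage d t il
  · obtain ⟨⟨i, l⟩, hl, hst, hen⟩ := hs
    rw [basePar_stage hd hl ⟨hst, hen⟩]
    set σ := (d.plan (d.j₀ + i))[l]
    set θ := stageTheta σ (speed (d.j₀ + i) * (t - stageStart d i l))
    obtain ⟨h0, h1⟩ : θ ∈ Icc (0 : ℝ) 1 := stageTheta_mem σ _
    refine ⟨e2_linePar h0 _, σ.gauge, fun k => ?_⟩
    have a1 : 1 ≤ Real.sqrt (1 + 2 * θ) := Real.one_le_sqrt.2 (by linarith)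
    have a2 : Real.sqrt (1 + 2 * θ) ≤ Real.sqrt 3 := Real.sqrt_le_sqrt (by linarith)
    have a3 : Real.sqrt 3 ≤ 7 / 4 := by rw [Real.sqrt_le_left (by norm_num)]; norm_num
    have c1 : d.scale t ≤ Real.sqrt 3 * d.scale t / Real.sqrt (1 + 2 * θ) := by
      rw [le_div_iff₀ (by linarith)]; nlinarith
    have c2 : Real.sqrt 3 * d.scale t / Real.sqrt (1 + 2 * θ) ≤ 12 := by
      rw [div_le_iff₀ (by linarith)]; nlinarith
    unfold linePar
    by_cases hk : k = σ.gauge
    · simp only [hk, if_true]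
      exact ⟨mul_nonneg (by linarith) h0, (mul_le_mul c2 h1 h0 (by norm_num)).trans (by norm_num),
        fun h => absurd rfl h⟩
    · simp only [hk, if_false, mul_one]
      exact ⟨by linarith, c2, fun _ => by linarith⟩
  · rcases lt_or_ge t ((d.j₀ : ℝ) ^ 6) with h | h
    · exact hconst _ (by rw [basePar_early hd h]; exact funext (hd.pre_end t ht))
    · exact hconst _ (basePar_of_eq (pathQ_late hd (by linarith) (not_exists.1 hs)))

theorem e2_base_pos (hd : d.Good r₂ β φ₀) (t : ℝ) : 0 < e2 (basePar d t) := by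
  rcases lt_or_ge t ((d.j₀ : ℝ) ^ 6) with h | h
  · rw [basePar_early hd h, e2]
    have := hd.pre_nonneg t 0
    obtain ⟨h1, h2⟩ := hd.pre_pos t
    positivity
  · rw [(basePar_late hd (by linarith)).1]
    have := hd.scale_pos t
    positivity

theorem basePar_nonneg (hd : d.Good r₂ β φ₀) (t : ℝ) (k : Fin 3) : 0 ≤ basePar d t k := by
  rcases lt_or_ge t ((d.j₀ : ℝ) ^ 6) with h | h
  · rw [basePar_early hd h]; exact hd.pre_nonneg t k
  · obtain ⟨G, hG⟩ := (basePar_late hd (show (d.j₀ : ℝ) ^ 6 - 1 ≤ t by linarith)).2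
    exact (hG k).1

/-- `pathDamp` through the parameters. -/
theorem pathDamp_eq (hd : d.Good r₂ β φ₀) :
    pathDamp d = fun t => 5 - 3 / 2 * deriv (fun u => Real.log (e2 (basePar d u))) t := by
  funext t
  have : (fun u => Real.log ((toLink (pathQ d (fun _ _ _ => 0) u))⁻¹).det) =
      fun u => -3 * Real.log (e2 (basePar d u)) := by
    funext u
    rw [pathQ_base hd u, log_det_inv_adQ]
  rw [pathDamp, this, deriv_const_mul_field]
  ring

theorem contDiff_log_e2 (hd : d.Good r₂ β φ₀) :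
    ContDiff ℝ ∞ fun u => Real.log (e2 (basePar d u)) := by
  refine ContDiff.log ?_ fun u => (e2_base_pos hd u).ne'
  exact (((basePar_smooth hd 0).mul (basePar_smooth hd 1)).add
    ((basePar_smooth hd 0).mul (basePar_smooth hd 2))).add
      ((basePar_smooth hd 1).mul (basePar_smooth hd 2))

theorem contDiff_pathDamp (hd : d.Good r₂ β φ₀) : ContDiff ℝ ∞ (pathDamp d) := by
  rw [pathDamp_eq hd]
  exact contDiff_const.sub (contDiff_const.mul
    (contDiff_infty_iff_deriv.1 (contDiff_log_e2 hd)).2)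

end Vale.Agent.P225.Free
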