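import Vale.Agent.P225.System.Free.CoreFn
import Vale.Agent.P225.System.Free.Path

/-!
P225, module F: Casimir sums, the core rate and existence of the free rate.
-/

noncomputable section

namespace Vale.Agent.P225

open Matrix SU2 Real
open scoped ContDiff

variable {d : PathData} {r₂ β φ₀ : ℝ}

theorem casSum_eq (l : Lbl) : casSum l = ∑ k, cas (l k) := by
  simp [casSum, cas4, cas, Fin.sum_univ_three]
  ring

theorem casSum_nonneg (l : Lbl) : 0 ≤ casSum l := by unfold casSum; positivity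

theorem casSum_pos {l : Lbl} (h : l ≠ 0) : 3 / 4 ≤ casSum l := by
  obtain ⟨k, hk⟩ := Function.ne_iff.1 h
  have hk1 : 1 ≤ l k := Nat.one_le_iff_ne_zero.2 hk
  have h1 : l k * (l k + 2) ≤ cas4 l :=
    Finset.single_le_sum (f := fun k => l k * (l k + 2)) (fun i _ => Nat.zero_le _) (Finset.mem_univ k)
  have h3 : (3 : ℝ) ≤ cas4 l := by
    exact_mod_cast (show 3 ≤ l k * (l k + 2) by nlinarith).trans h1
  unfold casSum
  linarith

theorem cas_nonneg' (a : ℕ) : 0 ≤ cas a := by unfold cas; positivity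

/-- The Casimir sum is controlled by any two of its terms. -/
theorem casSum_le_two {l : Lbl} (h : LblOK l) (G : Fin 3) :
    casSum l ≤ 3 * (cas (l (G + 1)) + cas (l (G + 2))) := by
  have key : ∀ a b c : ℕ, a ≤ b + c → cas a + cas b + cas c ≤ 3 * (cas b + cas c) := by
    intro a b c habc
    have h' : (a : ℝ) ≤ b + c := by exact_mod_cast habc
    unfold cas
    nlinarith [mul_nonneg (show (0 : ℝ) ≤ b + c - a by linarith)
      (show (0 : ℝ) ≤ b + c + a + 2 by positivity), sq_nonneg ((b : ℝ) - c),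
      (Nat.cast_nonneg b : (0 : ℝ) ≤ b), (Nat.cast_nonneg c : (0 : ℝ) ≤ c)]
  obtain ⟨-, h0, h1, h2⟩ := h
  rw [casSum_eq, Fin.sum_univ_three]
  fin_cases G
  · exact key _ _ _ h0
  · have := key (l 1) (l 2) (l 0) (by omega)
    show _ ≤ 3 * (cas (l 2) + cas (l 0))
    linarith
  · have := key (l 2) (l 0) (l 1) (by omega)
    show _ ≤ 3 * (cas (l 0) + cas (l 1))
    linarith

theorem coreRate_eq (β : ℝ) (l : Lbl) (t : ℝ) : coreRate β l t =
    l 1 + Free.corePhi (l 1) ((l 2 : ℝ) * (l 2 + 2) / β * Real.exp (2 * t)) := by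
  simp only [coreRate, Free.corePhi, (Free.hasDerivAt_coreFn _ _).deriv]

theorem coreRate_bounds (hd : d.Good r₂ β φ₀) (l : Lbl) (t : ℝ) :
    let A := (l 1 : ℝ) * (l 1 + 2) + (l 2 : ℝ) * (l 2 + 2) / β * Real.exp (2 * t)
    0 ≤ coreRate β l t ∧ (Real.sqrt (1 + A) - 1) / 2 ≤ coreRate β l t ∧
      coreRate β l t ≤ Real.sqrt (1 + A) - 1 := by
  intro A
  have := hd.β_pos
  set s := (l 2 : ℝ) * (l 2 + 2) / β * Real.exp (2 * t)
  have hs : 0 ≤ s := by positivity
  obtain ⟨h1, h2⟩ := Free.corePhi_bounds (l 1) hs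
  obtain ⟨r0, -, -⟩ := Free.coreRoot_spec (l 1) hs
  have e : Real.sqrt (1 + A) - 1 = l 1 + Free.coreRoot (l 1) s := by
    rw [Free.coreRoot, show (1 : ℝ) + A = ((l 1 : ℝ) + 1) ^ 2 + s by simp only [A, s]; ring]
    ring
  have : (0 : ℝ) ≤ l 1 := Nat.cast_nonneg _
  rw [coreRate_eq, e]
  exact ⟨by linarith, by linarith, by linarith⟩

theorem baseCoef_nonneg (hd : d.Good r₂ β φ₀) (l : Lbl) (t : ℝ) : 0 ≤ baseCoef d l t :=
  Finset.sum_nonneg fun k _ => mul_nonneg (Free.basePar_nonneg hd t k) (cas_nonneg' _)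

theorem baseCoef_contDiff (hd : d.Good r₂ β φ₀) (l : Lbl) :
    ContDiff ℝ ∞ fun t => baseCoef d l t :=
  ContDiff.sum fun k _ => (Free.basePar_smooth hd k).mul contDiff_const

theorem exists_freeRate (hd : d.Good r₂ β φ₀) (l : Lbl) :
    ∃ w : ℝ → ℝ, w (startTime r₂) = coreRate β l (startTime r₂) ∧
      ∀ t, startTime r₂ ≤ t →
        HasDerivAt w (baseCoef d l t - w t ^ 2 - pathDamp d t * w t) t ∧ 0 ≤ w t :=
  Free.exists_rate (baseCoef_contDiff hd l).continuous (Free.contDiff_pathDamp hd).continuous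
    (fun t _ => baseCoef_nonneg hd l t) (coreRate_bounds hd l _).1

end Vale.Agent.P225
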