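import Vale.Agent.P225.Riccati.Linear

/-!
P225, module F: scalar tools for the free rates: barriers, decay with a forcing term, existence and
uniqueness for a scalar Riccati equation.
-/

noncomputable section

namespace Vale.Agent.P225.Free

open Set Real
open scoped Topology

/-- A function that cannot decrease while negative stays nonnegative. -/
theorem barrier {f f' : ℝ → ℝ} {a b : ℝ} (hc : ContinuousOn f (Icc a b))
    (hd : ∀ x ∈ Ioo a b, HasDerivAt f (f' x) x) (h0 : 0 ≤ f a)
    (h : ∀ x ∈ Ioo a b, f x < 0 → 0 ≤ f' x) : ∀ t ∈ Icc a b, 0 ≤ f t := by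
  intro t ht
  by_contra hneg
  push Not at hneg
  set S := Icc a t ∩ f ⁻¹' Ici 0 with hS
  have hsub : Icc a t ⊆ Icc a b := Icc_subset_Icc_right ht.2
  have hSc : IsClosed S := (hc.mono hsub).preimage_isClosed_of_isClosed isClosed_Icc isClosed_Ici
  have hne : S.Nonempty := ⟨a, left_mem_Icc.2 ht.1, h0⟩
  have hbd : BddAbove S := ⟨t, fun x hx => hx.1.2⟩
  obtain ⟨⟨h1, h2⟩, h3⟩ := hSc.csSup_mem hne hbd
  set m := sSup S
  have h3' : 0 ≤ f m := h3
  have hmono : MonotoneOn f (Icc m t) := by
    refine monotoneOn_of_hasDerivWithinAt_nonneg (f' := f') (convex_Icc m t)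
      (hc.mono (Icc_subset_Icc h1 ht.2)) (fun x hx => ?_) fun x hx => ?_
    · rw [interior_Icc] at hx
      exact (hd x ⟨h1.trans_lt hx.1, hx.2.trans_le ht.2⟩).hasDerivWithinAt
    · rw [interior_Icc] at hx
      refine h x ⟨h1.trans_lt hx.1, hx.2.trans_le ht.2⟩ ?_
      by_contra hx0
      push Not at hx0
      exact absurd (le_csSup hbd ⟨⟨h1.trans hx.1.le, hx.2.le⟩, hx0⟩) (not_le.2 hx.1)
  linarith [hmono (left_mem_Icc.2 h2) (right_mem_Icc.2 h2) h2]

/-- A solution of `f' = F - D f` with `|F| ≤ M` and damping at least `l`. -/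
theorem decay {f F D : ℝ → ℝ} {a b M l : ℝ} (hl : 0 < l)
    (hd : ∀ x ∈ Icc a b, HasDerivAt f (F x - D x * f x) x)
    (hD : ∀ x ∈ Icc a b, l ≤ D x) (hF : ∀ x ∈ Icc a b, |F x| ≤ M) :
    ∀ t ∈ Icc a b, |f t| ≤ exp (-l * (t - a)) * |f a| + M / l := by
  intro t ht
  have hM : 0 ≤ M := (abs_nonneg _).trans (hF t ht)
  set B := fun u => exp (-l * (u - a)) * |f a| + M / l with hB
  have hB' : ∀ u, HasDerivAt B (-l * (B u - M / l)) u := fun u => by
    refine (((((hasDerivAt_id u).sub_const a).const_mul (-l)).exp.mul_const |f a|).add_const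
      (M / l)).congr_deriv ?_
    simp [hB]
    ring
  have hB0 : ∀ u, M / l ≤ B u := fun u => by simp [hB]; positivity
  have hla : l * (M / l) = M := mul_div_cancel₀ M hl.ne'
  have hMl : 0 ≤ M / l := by positivity
  refine abs_le.2 ⟨?_, ?_⟩
  · have := barrier (f := fun u => B u + f u)
      (fun u hu => ((hB' u).add (hd u hu)).continuousAt.continuousWithinAt)
      (fun u hu => (hB' u).add (hd u (Ioo_subset_Icc_self hu)))
      (by simp [hB]; linarith [neg_abs_le (f a)]) (fun u hu hneg => by
        have hu' := Ioo_subset_Icc_self hu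
        have h1 : l * (B u) ≤ D u * (-f u) :=
          mul_le_mul (hD u hu') (by linarith) (hMl.trans (hB0 u)) (hl.le.trans (hD u hu'))
        nlinarith [abs_le.1 (hF u hu')]) t ht
    change -(B t) ≤ f t
    linarith
  · have := barrier (f := fun u => B u - f u)
      (fun u hu => ((hB' u).sub (hd u hu)).continuousAt.continuousWithinAt)
      (fun u hu => (hB' u).sub (hd u (Ioo_subset_Icc_self hu)))
      (by simp [hB]; linarith [le_abs_self (f a)]) (fun u hu hneg => by
        have hu' := Ioo_subset_Icc_self hu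
        have h1 : l * (B u) ≤ D u * f u :=
          mul_le_mul (hD u hu') (by linarith) (hMl.trans (hB0 u)) (hl.le.trans (hD u hu'))
        nlinarith [abs_le.1 (hF u hu')]) t ht
    change f t ≤ B t
    linarith

/-- Existence of the nonnegative solution of `w' = A - w² - ν w` to the right. -/
theorem exists_rate {A ν : ℝ → ℝ} (hA : Continuous A) (hν : Continuous ν) {a w₀ : ℝ}
    (hA0 : ∀ t, a ≤ t → 0 ≤ A t) (hw : 0 ≤ w₀) :
    ∃ w : ℝ → ℝ, w a = w₀ ∧
      ∀ t, a ≤ t → HasDerivAt w (A t - w t ^ 2 - ν t * w t) t ∧ 0 ≤ w t := by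
  obtain ⟨x, hx0, hx⟩ := exists_linear_ode
    (fun t => (ContinuousLinearMap.snd ℝ ℝ ℝ).prod
      (A t • ContinuousLinearMap.fst ℝ ℝ ℝ - ν t • ContinuousLinearMap.snd ℝ ℝ ℝ))
    (continuous_clm_apply.2 fun y => by
      simp only [ContinuousLinearMap.prod_apply, _root_.sub_apply, _root_.smul_apply,
        ContinuousLinearMap.coe_fst', ContinuousLinearMap.coe_snd']
      fun_prop) a (1, w₀)
  set c := fun t => (x t).1 with hcdef
  set d := fun t => (x t).2 with hddef
  have hc : ∀ t, HasDerivAt c (d t) t := fun t => by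
    simpa [hcdef, hddef, Function.comp_def] using
      (ContinuousLinearMap.fst ℝ ℝ ℝ).hasFDerivAt.comp_hasDerivAt t (hx t)
  have hd : ∀ t, HasDerivAt d (A t * c t - ν t * d t) t := fun t => by
    simpa [hcdef, hddef, Function.comp_def] using
      (ContinuousLinearMap.snd ℝ ℝ ℝ).hasFDerivAt.comp_hasDerivAt t (hx t)
  set e := fun t => exp (∫ u in a..t, ν u)
  have he : ∀ t, HasDerivAt e (e t * ν t) t := fun t =>
    (hν.integral_hasStrictDerivAt a t).hasDerivAt.exp
  have hK : ∀ t, HasDerivAt (fun t => e t * (c t * d t))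
      (e t * (d t ^ 2 + A t * c t ^ 2)) t := fun t => by
    refine ((he t).mul ((hc t).mul (hd t))).congr_deriv ?_
    simp only [Pi.mul_apply]
    ring
  have hcd : ∀ t, a ≤ t → 0 ≤ c t * d t := fun t ht => by
    have := barrier (fun u _ => (hK u).continuousAt.continuousWithinAt) (fun u _ => hK u)
      (by simp [e, hcdef, hddef, hx0, hw])
      (fun u hu _ => mul_nonneg (exp_pos _).le
        (add_nonneg (sq_nonneg _) (mul_nonneg (hA0 u hu.1.le) (sq_nonneg _))))
      t (right_mem_Icc.2 ht)
    exact nonneg_of_mul_nonneg_right this (exp_pos _)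
  have hc1 : ∀ t, a ≤ t → 1 ≤ c t ^ 2 := fun t ht => by
    have := barrier (f := fun u => c u ^ 2 - 1) (f' := fun u => 2 * (c u * d u))
      (fun u _ => (((hc u).fun_pow 2).sub_const 1).continuousAt.continuousWithinAt)
      (fun u _ => (((hc u).fun_pow 2).sub_const 1).congr_deriv (by push_cast; ring))
      (by simp [hcdef, hx0])
      (fun u hu _ => by linarith [hcd u hu.1.le]) t (right_mem_Icc.2 ht)
    linarith
  refine ⟨fun t => d t / c t, by simp [hcdef, hddef, hx0], fun t ht => ?_⟩
  have hne : c t ≠ 0 := fun h => by have := hc1 t ht; simp [h] at this; linarith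
  refine ⟨((hd t).div (hc t) hne).congr_deriv (by field_simp; ring), ?_⟩
  show 0 ≤ d t / c t
  rw [show d t / c t = c t * d t / c t ^ 2 by field_simp]
  exact div_nonneg (hcd t ht) (sq_nonneg _)

/-- Two solutions with the same initial value agree. -/
theorem rate_unique {A ν w v : ℝ → ℝ} {a b : ℝ} (hν : Continuous ν)
    (hw : ∀ t ∈ Icc a b, HasDerivAt w (A t - w t ^ 2 - ν t * w t) t)
    (hv : ∀ t ∈ Icc a b, HasDerivAt v (A t - v t ^ 2 - ν t * v t) t) (h0 : w a = v a) :
    ∀ t ∈ Icc a b, w t = v t := by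
  intro t ht
  by_contra hne
  have hc : ContinuousOn (fun s => |w s + v s + ν s|) (Icc a b) := fun s hs =>
    (((hw s hs).continuousAt.add (hv s hs).continuousAt).add hν.continuousAt).abs.continuousWithinAt
  obtain ⟨C, hC⟩ := (isCompact_Icc.image_of_continuousOn hc).bddAbove
  have := norm_le_gronwallBound_of_norm_deriv_right_le (f := fun s => w s - v s)
    (f' := fun s => A s - w s ^ 2 - ν s * w s - (A s - v s ^ 2 - ν s * v s)) (δ := 0) (K := C)
    (ε := 0) (a := a) (b := b) (fun s hs => ((hw s hs).sub (hv s hs)).continuousAt.continuousWithinAt)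
    (fun s hs => ((hw s (Ico_subset_Icc_self hs)).sub (hv s (Ico_subset_Icc_self hs))).hasDerivWithinAt)
    (by simp [h0]) (fun s hs => by
      have hC' := hC (mem_image_of_mem _ (Ico_subset_Icc_self hs))
      simp only [Real.norm_eq_abs, add_zero]
      rw [show A s - w s ^ 2 - ν s * w s - (A s - v s ^ 2 - ν s * v s) =
        -((w s + v s + ν s) * (w s - v s)) by ring, abs_neg, abs_mul]
      exact mul_le_mul_of_nonneg_right hC' (abs_nonneg _)) t ht
  simp [gronwallBound_ε0_δ0, sub_eq_zero] at this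
  exact hne this

end Vale.Agent.P225.Free
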