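import Vale.Agent.P225.Series.Defs
import Vale.Agent.P225.System.Free.Ode

/-!
P225, module F: the regular core solution `coreFn` and its logarithmic derivative.
-/

noncomputable section

namespace Vale.Agent.P225.Free

open Set Real Filter
open scoped Topology Nat

/-- Coefficient sequences of exponential type. -/
def IsExpType (c : ℕ → ℝ) : Prop := ∀ k, |c k| ≤ ((k ! : ℝ))⁻¹

/-- Coefficients of the derivative. -/
def dShift (c : ℕ → ℝ) (k : ℕ) : ℝ := ((k : ℝ) + 1) * c (k + 1)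

theorem IsExpType.dShift {c : ℕ → ℝ} (h : IsExpType c) : IsExpType (dShift c) := fun k => by
  have h1 := h (k + 1)
  rw [Free.dShift, abs_mul, abs_of_nonneg (by positivity : (0 : ℝ) ≤ (k : ℝ) + 1)]
  calc ((k : ℝ) + 1) * |c (k + 1)| ≤ ((k : ℝ) + 1) * (((k + 1)! : ℝ))⁻¹ := by gcongr
    _ = _ := by rw [Nat.factorial_succ]; push_cast; field_simp

/-- The entire function of a coefficient sequence. -/
def pser (c : ℕ → ℝ) (s : ℝ) : ℝ := ∑' k : ℕ, c k * s ^ k

theorem IsExpType.summable {c : ℕ → ℝ} (h : IsExpType c) (s : ℝ) :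
    Summable fun k : ℕ => c k * s ^ k := by
  refine Summable.of_norm_bounded (Real.summable_pow_div_factorial |s|) fun k => ?_
  rw [Real.norm_eq_abs, abs_mul, abs_pow, div_eq_inv_mul]
  exact mul_le_mul_of_nonneg_right (h k) (by positivity)

theorem IsExpType.hasDerivAt {c : ℕ → ℝ} (h : IsExpType c) (s : ℝ) :
    HasDerivAt (pser c) (pser (Free.dShift c) s) s := by
  set R := |s| + 1
  have hg : ∀ (k : ℕ) (y : ℝ), HasDerivAt (fun z => c k * z ^ k) (c k * (k * y ^ (k - 1))) y :=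
    fun k y => (hasDerivAt_pow k y).const_mul (c k)
  have hu : Summable fun k : ℕ => |c k| * (k * R ^ (k - 1)) := by
    rw [← summable_nat_add_iff 1]
    refine Summable.of_nonneg_of_le (fun k => by positivity) (fun k => ?_)
      (Real.summable_pow_div_factorial R)
    have := h.dShift k
    rw [Free.dShift, abs_mul, abs_of_nonneg (by positivity : (0 : ℝ) ≤ (k : ℝ) + 1)] at this
    calc |c (k + 1)| * (((k + 1 : ℕ) : ℝ) * R ^ (k + 1 - 1))
        = (((k : ℝ) + 1) * |c (k + 1)|) * R ^ k := by push_cast; ring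
      _ ≤ ((k ! : ℝ))⁻¹ * R ^ k := mul_le_mul_of_nonneg_right this (by positivity)
      _ = _ := by rw [div_eq_inv_mul]
  have hb : ∀ (k : ℕ) (y : ℝ), y ∈ Ioo (-R) R →
      ‖c k * (k * y ^ (k - 1))‖ ≤ |c k| * (k * R ^ (k - 1)) := fun k y hy => by
    rw [Real.norm_eq_abs, abs_mul, abs_mul, abs_pow, Nat.abs_cast]
    gcongr
    exact (abs_lt.2 hy).le
  have hs : s ∈ Ioo (-R) R := abs_lt.1 (lt_add_one _)
  have hd := hasDerivAt_tsum_of_isPreconnected hu isOpen_Ioo isPreconnected_Ioo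
    (fun k y _ => hg k y) hb hs (h.summable s) hs
  refine hd.congr_deriv ?_
  rw [(Summable.of_norm_bounded hu fun k => hb k s hs).tsum_eq_zero_add]
  simp only [Nat.cast_zero, zero_mul, mul_zero, zero_add, Nat.add_sub_cancel, pser, Free.dShift]
  exact tsum_congr fun k => by push_cast; ring

/-- Coefficients of `coreFn a`. -/
def coreCoef (a k : ℕ) : ℝ := ((4 : ℝ) ^ k * k ! * (Nat.ascFactorial (a + 2) k : ℝ))⁻¹

theorem coreFn_eq (a : ℕ) : coreFn a = pser (coreCoef a) := by
  funext s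
  refine tsum_congr fun k => ?_
  rw [coreCoef, div_pow]
  field_simp

theorem asc_pos (a k : ℕ) : 0 < (Nat.ascFactorial (a + 2) k : ℝ) := by
  exact_mod_cast Nat.ascFactorial_pos (a + 1) k

theorem coreCoef_pos (a k : ℕ) : 0 < coreCoef a k := by
  have := asc_pos a k
  unfold coreCoef
  positivity

theorem coreCoef_expType (a : ℕ) : IsExpType (coreCoef a) := fun k => by
  rw [abs_of_pos (coreCoef_pos a k), coreCoef]
  refine inv_anti₀ (by positivity) ?_
  have h1 : (1 : ℝ) ≤ (4 : ℝ) ^ k := one_le_pow₀ (by norm_num)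
  have h2 : (1 : ℝ) ≤ (Nat.ascFactorial (a + 2) k : ℝ) := by
    exact_mod_cast Nat.ascFactorial_pos (a + 1) k
  calc ((k ! : ℝ)) = 1 * (k ! : ℝ) * 1 := by ring
    _ ≤ _ := by gcongr

theorem coreCoef_succ (a k : ℕ) :
    ((k : ℝ) + 1) * ((k : ℝ) + a + 2) * coreCoef a (k + 1) = coreCoef a k / 4 := by
  have := asc_pos a k
  simp only [coreCoef, Nat.ascFactorial_succ, Nat.factorial_succ, pow_succ]
  push_cast
  field_simp
  ring

/-- The derivative of `coreFn a`. -/
def coreFn' (a : ℕ) : ℝ → ℝ := pser (dShift (coreCoef a))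

/-- The second derivative of `coreFn a`. -/
def coreFn'' (a : ℕ) : ℝ → ℝ := pser (dShift (dShift (coreCoef a)))

theorem hasDerivAt_coreFn (a : ℕ) (s : ℝ) : HasDerivAt (coreFn a) (coreFn' a s) s := by
  rw [coreFn_eq]; exact (coreCoef_expType a).hasDerivAt s

theorem hasDerivAt_coreFn' (a : ℕ) (s : ℝ) : HasDerivAt (coreFn' a) (coreFn'' a s) s :=
  (coreCoef_expType a).dShift.hasDerivAt s

theorem coreFn_ode (a : ℕ) (s : ℝ) :
    s * coreFn'' a s + ((a : ℝ) + 2) * coreFn' a s = coreFn a s / 4 := by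
  have hc := coreCoef_expType a
  have h1 : HasSum (fun k : ℕ => ((a : ℝ) + 2) * (dShift (coreCoef a) k * s ^ k))
      (((a : ℝ) + 2) * coreFn' a s) := (hc.dShift.summable s).hasSum.mul_left _
  have h2 : HasSum (fun k : ℕ => ((k : ℝ) + 1) * (coreCoef a (k + 1)) * (k * s ^ k))
      (s * coreFn'' a s) := by
    rw [← hasSum_nat_add_iff' 1]
    simp only [Finset.sum_range_one, Nat.cast_zero, zero_mul, mul_zero, sub_zero]
    refine ((hc.dShift.dShift.summable s).hasSum.mul_left s).congr_fun fun k => ?_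
    simp only [dShift]
    push_cast
    ring
  rw [coreFn_eq]
  refine (h2.add h1).unique ?_
  refine ((hc.summable s).hasSum.div_const 4).congr_fun fun k => ?_
  simp only [dShift]
  linear_combination (s ^ k) * coreCoef_succ a k

theorem one_le_coreFn (a : ℕ) {s : ℝ} (hs : 0 ≤ s) : 1 ≤ coreFn a s := by
  rw [coreFn_eq]
  refine le_trans ?_ (((coreCoef_expType a).summable s).le_tsum 0
    fun k _ => mul_nonneg (coreCoef_pos a k).le (pow_nonneg hs k))
  simp [coreCoef]

theorem coreFn'_nonneg (a : ℕ) {s : ℝ} (hs : 0 ≤ s) : 0 ≤ coreFn' a s :=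
  tsum_nonneg fun k => mul_nonneg (mul_nonneg (by positivity) (coreCoef_pos a (k + 1)).le)
    (pow_nonneg hs k)

/-- `2 s F' / F`. -/
def corePhi (a : ℕ) (s : ℝ) : ℝ := 2 * s * coreFn' a s / coreFn a s

theorem hasDerivAt_corePhi (a : ℕ) {s : ℝ} (hs : 0 ≤ s) :
    ∃ d, HasDerivAt (corePhi a) d s ∧
      2 * s * d = s - (2 * (a : ℝ) + 2) * corePhi a s - corePhi a s ^ 2 := by
  have hF : coreFn a s ≠ 0 := (zero_lt_one.trans_le (one_le_coreFn a hs)).ne'
  refine ⟨_, ((((hasDerivAt_id s).const_mul 2).fun_mul (hasDerivAt_coreFn' a s)).fun_div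
    (hasDerivAt_coreFn a s) hF), ?_⟩
  simp only [corePhi, id]
  field_simp
  linear_combination 4 * s * coreFn a s * coreFn_ode a s

/-- The root `√((a+1)² + s) - (a+1)`. -/
def coreRoot (a : ℕ) (s : ℝ) : ℝ := Real.sqrt (((a : ℝ) + 1) ^ 2 + s) - ((a : ℝ) + 1)

theorem coreRoot_spec (a : ℕ) {s : ℝ} (hs : 0 ≤ s) :
    0 ≤ coreRoot a s ∧ coreRoot a s ^ 2 + (2 * (a : ℝ) + 2) * coreRoot a s = s ∧
      1 ≤ Real.sqrt (((a : ℝ) + 1) ^ 2 + s) := by
  have h0 : (0 : ℝ) ≤ ((a : ℝ) + 1) ^ 2 + s := by positivity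
  have h1 := Real.sq_sqrt h0
  have h2 : ((a : ℝ) + 1) ≤ Real.sqrt (((a : ℝ) + 1) ^ 2 + s) :=
    Real.le_sqrt_of_sq_le (by linarith)
  unfold coreRoot
  refine ⟨by linarith, by nlinarith, le_trans (le_add_of_nonneg_left (by positivity)) h2⟩

theorem corePhi_bounds (a : ℕ) {s : ℝ} (hs : 0 ≤ s) :
    coreRoot a s / 2 ≤ corePhi a s ∧ corePhi a s ≤ coreRoot a s := by
  choose d hd hd2 using fun (x : ℝ) (hx : 0 ≤ x) => hasDerivAt_corePhi a hx
  set D : ℝ → ℝ := fun x => deriv (corePhi a) x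
  have hD : ∀ x, 0 ≤ x → HasDerivAt (corePhi a) (D x) x := fun x hx =>
    (hd x hx).differentiableAt.hasDerivAt
  have hD2 : ∀ x, 0 ≤ x → 2 * x * D x = x - (2 * (a : ℝ) + 2) * corePhi a x - corePhi a x ^ 2 :=
    fun x hx => by rw [show D x = d x hx from (hd x hx).deriv]; exact hd2 x hx
  have hr : ∀ x, 0 ≤ x → HasDerivAt (coreRoot a)
      (1 / (2 * Real.sqrt (((a : ℝ) + 1) ^ 2 + x))) x := fun x hx =>
    (((hasDerivAt_id x).const_add (((a : ℝ) + 1) ^ 2)).sqrt (by simp; positivity)).sub_const _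
  have hphi0 : ∀ x, 0 ≤ x → 0 ≤ corePhi a x := fun x hx =>
    div_nonneg (mul_nonneg (by linarith) (coreFn'_nonneg a hx))
      (zero_le_one.trans (one_le_coreFn a hx))
  have h00 : corePhi a 0 = 0 := by simp [corePhi]
  have hr0 : coreRoot a 0 = 0 := by
    simp [coreRoot, Real.sqrt_sq (by positivity : (0 : ℝ) ≤ (a : ℝ) + 1)]
  constructor
  · have := barrier (f := fun x => corePhi a x - coreRoot a x / 2)
      (fun x hx => ((hD x hx.1).continuousAt.sub
        ((hr x hx.1).continuousAt.div_const 2)).continuousWithinAt)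
      (fun x hx => (hD x hx.1.le).sub ((hr x hx.1.le).div_const 2)) (by simp [h00, hr0])
      (fun x hx hneg => by
        have hp := hphi0 x hx.1.le
        obtain ⟨r0, r1, r2⟩ := coreRoot_spec a hx.1.le
        have h := hD2 x hx.1.le
        have hlow : x / 2 ≤ 2 * x * D x := by
          nlinarith [mul_nonneg r0 r0, mul_nonneg hp hp]
        have hi : 1 / (2 * Real.sqrt (((a : ℝ) + 1) ^ 2 + x)) ≤ 1 / 2 := by
          rw [div_le_div_iff₀ (by positivity) two_pos]; linarith
        have hl : 1 / 4 ≤ D x := le_of_mul_le_mul_left (by linarith : 2 * x * (1 / 4) ≤ 2 * x * D x)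
          (by linarith [hx.1])
        linarith) s (right_mem_Icc.2 hs)
    linarith
  · have := barrier (f := fun x => coreRoot a x - corePhi a x)
      (fun x hx => ((hr x hx.1).continuousAt.sub (hD x hx.1).continuousAt).continuousWithinAt)
      (fun x hx => (hr x hx.1.le).sub (hD x hx.1.le)) (by simp [h00, hr0])
      (fun x hx hneg => by
        obtain ⟨r0, r1, r2⟩ := coreRoot_spec a hx.1.le
        have h := hD2 x hx.1.le
        have hup : 2 * x * D x ≤ 0 := by nlinarith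
        have hl : D x ≤ 0 := nonpos_of_mul_nonpos_right hup (by linarith [hx.1])
        have : 0 ≤ 1 / (2 * Real.sqrt (((a : ℝ) + 1) ^ 2 + x)) := by positivity
        linarith) s (right_mem_Icc.2 hs)
    linarith

end Vale.Agent.P225.Free
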